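import Vale.Agent.P227.M.Top.Three592
import Vale.Agent.P227.M.SC.HeatDone
import Vale.Agent.P227.M.SC2.MargN
import Vale.Agent.P227.M.LIN.ESA

namespace Vale.Agent.P227.T558

open Vale.Agent.P227.M

theorem sc : StmtSC := HL.stmtSC_of_heat SC.stmtHeat

theorem t3 (h : LIN.StmtH1) : StmtQ1 :=
  Three592.stmtQ1_of_three sc LIN.E456.stmtESA h

end Vale.Agent.P227.T558
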