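import Vale.Agent.P227.T558.Top2
import Vale.Agent.P227.M.LIN.H1Top
import Vale.Agent.P227.M.LIN.H1Pt

namespace Vale.Agent.P227.T558

open Vale.Agent.P227.M

theorem ptAll : LIN.H1T.PtAll := by
  intro n ψ V c C M hM
  obtain ⟨T1, h1, h2⟩ := LIN.pt_bound hM
  exact ⟨T1, h1, fun R hR => h2 R (by linarith)⟩

theorem h1 : LIN.StmtH1 := LIN.H1T.stmtH1_of ptAll

theorem q1 : StmtQ1 := t3 h1

end Vale.Agent.P227.T558
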